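import Vale.Agent.P237.Quant.TailData.N24.tailN24N0Part0
import Vale.Agent.P237.Quant.TailData.N24.tailN24N0Part1
import Vale.Agent.P237.Quant.TailData.N24.tailN24N0Part2

/-!
Tail calibration tailN24N0 in dimension 24. The check. Generated data, checked by the kernel.
-/

set_option maxRecDepth 100000
set_option linter.all false

namespace Vale.Agent.P237.Quant.TailData

open TailCert


/-- The calibration. -/
noncomputable def tailN24N0 : Cfg :=
  tailN24N0Base.withIvals (List.flatten [tailN24N0L0, tailN24N0L1, tailN24N0L2, tailN24N0L3, tailN24N0L4, tailN24N0L5, tailN24N0L6, tailN24N0L7, tailN24N0L8])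

theorem tailN24N0_parts : [tailN24N0L0, tailN24N0L1, tailN24N0L2, tailN24N0L3, tailN24N0L4, tailN24N0L5, tailN24N0L6, tailN24N0L7, tailN24N0L8].Forall fun l => tailN24N0Base.partUsed tailN24N0Used l = true := by
  simp only [List.forall_cons, List.Forall]
  exact ⟨tailN24N0L0_ok, tailN24N0L1_ok, tailN24N0L2_ok, tailN24N0L3_ok, tailN24N0L4_ok, tailN24N0L5_ok, tailN24N0L6_ok, tailN24N0L7_ok, tailN24N0L8_ok⟩

theorem tailN24N0_check : tailN24N0.check = true :=
  Cfg.check_of_parts (by decide +kernel) tailN24N0_parts

end Vale.Agent.P237.Quant.TailData
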