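import Vale.Agent.P237.Quant.TailData.N24.tailN24P2Part0
import Vale.Agent.P237.Quant.TailData.N24.tailN24P2Part1
import Vale.Agent.P237.Quant.TailData.N24.tailN24P2Part2
import Vale.Agent.P237.Quant.TailData.N24.tailN24P2Part3

/-!
Tail calibration tailN24P2 in dimension 24. The check. Generated data, checked by the kernel.
-/

set_option maxRecDepth 100000
set_option linter.all false

namespace Vale.Agent.P237.Quant.TailData

open TailCert


/-- The calibration. -/
noncomputable def tailN24P2 : Cfg :=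
  tailN24P2Base.withIvals (List.flatten [tailN24P2L0, tailN24P2L1, tailN24P2L2, tailN24P2L3, tailN24P2L4, tailN24P2L5, tailN24P2L6, tailN24P2L7, tailN24P2L8, tailN24P2L9, tailN24P2L10, tailN24P2L11, tailN24P2L12, tailN24P2L13, tailN24P2L14])

theorem tailN24P2_parts : [tailN24P2L0, tailN24P2L1, tailN24P2L2, tailN24P2L3, tailN24P2L4, tailN24P2L5, tailN24P2L6, tailN24P2L7, tailN24P2L8, tailN24P2L9, tailN24P2L10, tailN24P2L11, tailN24P2L12, tailN24P2L13, tailN24P2L14].Forall fun l => tailN24P2Base.partUsed tailN24P2Used l = true := by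
  simp only [List.forall_cons, List.Forall]
  exact ⟨tailN24P2L0_ok, tailN24P2L1_ok, tailN24P2L2_ok, tailN24P2L3_ok, tailN24P2L4_ok, tailN24P2L5_ok, tailN24P2L6_ok, tailN24P2L7_ok, tailN24P2L8_ok, tailN24P2L9_ok, tailN24P2L10_ok, tailN24P2L11_ok, tailN24P2L12_ok, tailN24P2L13_ok, tailN24P2L14_ok⟩

theorem tailN24P2_check : tailN24P2.check = true :=
  Cfg.check_of_parts (by decide +kernel) tailN24P2_parts

end Vale.Agent.P237.Quant.TailData
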